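import Crest.Agent.R225.Defs

/-!
# Row 225: Blueprint
Overview of the proofs of S0347 and S0348 (no Lean content).

## S0347: lattice coverings of density `C n log n`
Write `ℝ^n = ℝ^d ⊕ ℝ^N`, `d = (log log n)^O(1)`.
1. (`Iso, Borell, Proj, ThinCore, Thin, Desm, Marg`) After a linear change of coordinates the vertical marginal of `K` dominates `c` times the standard Gaussian
   density on the cube `[-d,d]^d` (isotropic position, Klartag-type argument: random projections are log-concave Gaussian mixtures, so a thin shell has constant mass).
2. (`Psi, Hash, Unif, Typ, TwoLevel, Blk1, Block, BlockEv, Vert`) There is a lattice `A ℤ^d` such that near every point `y` a *two-level* family `S` of at most `2^d` lattice points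
   carries weights `w z ≤ |det A| gz (y - A z)`, each `≤ e^(-k)`, of total mass `≥ c₀` (`Vert`).  A tower of `k` blocks; each block is a folded Boolean cube
   with a random shift, glued to the previous one by a hash map.
3. (`Indep, Cong, Bonf, U2, U2b, Cells, Occ1, Occ2, BaseCore, Base`) For finitely many convex sets `J a ⊆ ℝ^N` of volume `≥ v a`, `v a ≤ c N / log N`, one unimodular lattice leaves holes of
   measure `≤ 4 |I| exp (-v a/2)` (Bonferroni over independent tuples of a Rogers-type random lattice; relations of height one are handled by a `U²` inequality).
4. (`Shift, LC, Cover`) Lift `A ℤ^d` with random shifts: on two-level families holes are independent up to a factor `Q^|S|` (`exists_shift`), so the uncovered part of each horizontal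
   torus has measure `≤ (4Q²)^(2^d) exp (-c θ c₀/2) < n^(-n)/2` for `θ = C n log n`; Rogers' lemma removes it after dilating by `1 + 2/n`.

## S0348: the lower bound
`K` is the unit ball cut by random slabs `|⟪q, z⟫| ≤ L = β √n`, `q` from a (discretised) Poisson process of intensity `γ / Qt L` (`Grid, GTail, BodyVol`).  A covering of density
`< c n log n` gives a window with a configuration `X'` of at most `e^(2n)` net points and half of the test points good (`Window`).  For a fixed configuration the probability that no good test
point has all its centres cut is `≤ exp (-e^(15 n)/4)` (`Bern, Janson, Cap, Level1, Level2, Level`); union bound (`Main348`).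
-/

set_option autoImplicit false

open MeasureTheory ProbabilityTheory Matrix Filter Topology
open scoped ENNReal RealInnerProductSpace

noncomputable section

namespace Crest.Agent.R225



end Crest.Agent.R225
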